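import Vale.Agent.P112.Bdl.B2
import Vale.Agent.P112.Bdl.B5
import Vale.Agent.P112.Top.Compose
import Vale.Agent.P112.H526.R0P

/-!
# P112: the final statement from the gain theorem
-/

open MeasureTheory Filter Topology
open scoped NNReal

namespace Vale.Agent.P112.Final

open Vale.Agent.P112

/-- The principal value exists. -/
theorem pv (v : Plane → Plane) (F : Plane → ℂ) (hF : IsSchwartz F) (x : Plane) (a : ℝ)
    (ha : 0 < a) :
    Tendsto (fun ε : ℝ => truncHilbert v ε a F x) (𝓝[>] (0 : ℝ)) (𝓝 (hilbert v a F x)) := by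
  obtain ⟨f, rfl⟩ := hF
  exact hilbert_tendsto v f x ha

/-- One field with no weak type bound at any scale above `1`. -/
theorem sharp : ∃ v : Plane → Plane, (∀ x, ‖v x‖ = 1) ∧ LipschitzWith 1 v ∧
    ∀ a : ℝ, 1 < a → ∀ C : ℝ, ¬ WeakType v a C := by
  simp_rw [weakType_iff]
  refine ⟨focusField 1 1, norm_focusField 1 1, ?_, fun a ha C => ?_⟩
  · refine LipschitzWith.of_dist_le_mul fun x y => ?_
    rw [dist_eq_norm, dist_eq_norm]
    simpa using norm_focusField_sub_le (K := 1) zero_le_one 1 x y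
  · exact not_weak_focusField one_pos one_pos (by linarith) C

/-- The conjecture from the gain theorem. -/
theorem stein_of {e : ℝ≥0} (he0 : 0 < e) (he : (e : ℝ) ≤ 1 / 2) {M : ℕ} (hM : 8 ≤ M)
    (hG : ∀ κ : T.Ker M, TOP.StG κ e) :
    ∃ C : ℝ, 0 < C ∧ ∀ v : Plane → Plane, (∀ x, ‖v x‖ = 1) → LipschitzWith 1 v →
      ∀ a : ℝ, 0 < a → a ≤ 1 → StrongType v a C ∧ WeakType v a C :=
  TOP.stein_of_FG he0 he hM (fun κ => H526.R0.r0ν hM κ) hG

end Vale.Agent.P112.Final
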