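import Vale.Agent.P112.Final.Asm
import Vale.Agent.P112.H889.ShortFin

/-!
# P112: the final statement from the gain for fields with a tiny Lipschitz constant
-/

open MeasureTheory Filter Topology
open scoped NNReal

namespace Vale.Agent.P112.Final

open Vale.Agent.P112

/-- The conjecture from the gain theorem for fields with a tiny Lipschitz constant. -/
theorem stein_of_gs {M : ℕ} (hM : 8 ≤ M) (hG : ∀ κ : T.Ker M, H889.StGs κ) :
    ∃ C : ℝ, 0 < C ∧ ∀ v : Plane → Plane, (∀ x, ‖v x‖ = 1) → LipschitzWith 1 v →
      ∀ a : ℝ, 0 < a → a ≤ 1 → StrongType v a C ∧ WeakType v a C :=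
  stein_of (e := 1 / 2) (by positivity) (by norm_num) hM fun κ => H889.stG_of hM (by norm_num) (hG κ)

end Vale.Agent.P112.Final
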