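import Vale.Agent.P112.Final.Fin
import Vale.Agent.P112.H646.StAna

/-!
# P112: Stein's conjecture for Lipschitz vector fields
-/

namespace Vale.Agent.P112.Final

/-- **Stein's conjecture**, in strong form, at every scale `a ≤ 1`. -/
theorem stein :
    ∃ C : ℝ, 0 < C ∧ ∀ v : Plane → Plane, (∀ x, ‖v x‖ = 1) → LipschitzWith 1 v →
      ∀ a : ℝ, 0 < a → a ≤ 1 → StrongType v a C ∧ WeakType v a C :=
  stein_of_ana H646.Gain.stAna

end Vale.Agent.P112.Final
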